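import Vale.Agent.P106.W401.BesA

/-! # P106 / W2 : [BESD], proof (helper401) -/

open MeasureTheory Complex Set Filter
open scoped ENNReal NNReal ContDiff FourierTransform Topology SchwartzMap

set_option linter.all false

namespace Vale.Agent.P106.W401

open Vale.Agent.P106.G
open Vale.Agent.P106.W301 (pg StBESD)
open Vale.Agent.P117 (Adm)

/-- the kernels of the cap projections are bounded in `L¹` -/
theorem kn_MP {c : ℝ} (hc : 0 < c) (hc1 : c ≤ 1) : ∃ B : ℝ, 0 ≤ B ∧ ∀ (H : Hyp) (N : ℕ) (b1 b2 : ℝ) (k : ℤ × ℤ), H.ok2 →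
    Cap (k.1 / N + b1) (k.2 / N + b2) (1 / N) → kn (MP H c N b1 b2 k) ≤ ENNReal.ofReal B := by
  obtain ⟨BK, hBK, hBk⟩ := ker_L1 (r1_chiP hc hc1).toRcut vcut_psvP.vc vcut_psvP.vc
  refine ⟨BK, hBK, ?_⟩
  intro H N b1 b2 k hH hCk
  have hm := cap_m hH hCk
  have hm0 : 0 < H.m (k.1 / N + b1) (k.2 / N + b2) := by linarith [hm.1]
  unfold MP
  rw [kn_AT (AT_det_ne (H := H) (β1 := k.1 / N + b1) (β2 := k.2 / N + b2) (τ := 1 / N) hm0 hCk.pos)]
  have e1 : (fun ξ => H.mu (chiP c) (capP (k.1 / N + b1) (1 / N)) (capP (k.2 / N + b2) (1 / N)) (mat3 (H.AT (k.1 / N + b1) (k.2 / N + b2) (1 / N)) ξ)) =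
      (H.sub (k.1 / N + b1) (k.2 / N + b2) (1 / N)).mu (chiP c) psvP psvP := by
    ext ξ; exact kn_cap hH hCk hc hc1 ξ
  rw [e1]
  have := hBk _ (cap_ok hH hCk).ok 0
  rw [em_zero] at this
  refine this.trans (ENNReal.ofReal_le_ofReal ?_)
  simp

/-- far part: `y` well inside the plate, `f` supported outside the enlarged plates -/
theorem far_pg {H : Hyp} {c : ℝ} {N : ℕ} {T b1 b2 : ℝ} (hT1 : 1 ≤ T) {k : ℤ × ℤ} (hsm : Sm (MP H c N b1 b2 k)) {L δ A0 : ℝ}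
    (hT : ∫⁻ u : G.E3, {u : G.E3 | L / 6 ≤ ‖mat3 (H.AT (k.1 / N + b1) (k.2 / N + b2) (1 / N)).transpose u‖}.indicator
      (fun u => ‖𝓕⁻ (MP H c N b1 b2 k) u‖ₑ) u ≤ ENNReal.ofReal δ) {f : G.E3 → ℂ}
    (hf : Adm volume f) (hA : ∀ x, ‖f x‖ ≤ A0) {W : Set G.E3} (hW : MeasurableSet W) {x : G.E3}
    (hWx : ∀ y, pg H N T b1 b2 k x y ≤ L → y ∈ W) {y : G.E3} (hy : pg H N T b1 b2 k x y ≤ L / 2) :
    ‖mop (MP H c N b1 b2 k) (Wᶜ.indicator f) y‖ₑ ≤ ENNReal.ofReal (δ * A0) := by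
  have hA0 : 0 ≤ A0 := (norm_nonneg _).trans (hA 0)
  refine (mop_pw hsm (hf.int.indicator hW.compl) y).trans ?_
  calc ∫⁻ u, ‖𝓕⁻ (MP H c N b1 b2 k) (y - u)‖ₑ * ‖Wᶜ.indicator f u‖ₑ ≤
      ∫⁻ u, {u : G.E3 | L / 6 ≤ ‖mat3 (H.AT (k.1 / N + b1) (k.2 / N + b2) (1 / N)).transpose u‖}.indicator
        (fun u => ‖𝓕⁻ (MP H c N b1 b2 k) u‖ₑ) (y - u) * ENNReal.ofReal A0 := by
        refine lintegral_mono fun u => ?_
        by_cases hu : u ∈ Wᶜ
        · have hmem : y - u ∈ {u : G.E3 | L / 6 ≤ ‖mat3 (H.AT (k.1 / N + b1) (k.2 / N + b2) (1 / N)).transpose u‖} := by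
            have h1 : L < pg H N T b1 b2 k x u := by
              by_contra h
              exact hu (hWx u (not_lt.1 h))
            have h2 := pg_lip (H := H) (N := N) (b1 := b1) (b2 := b2) hT1 k x y u
            rw [mem_setOf_eq]
            linarith
          rw [indicator_of_mem hmem, indicator_of_mem hu]
          gcongr
          rw [← ofReal_norm]
          exact ENNReal.ofReal_le_ofReal (hA u)
        · rw [indicator_of_notMem hu]; simp
    _ = (∫⁻ u, {u : G.E3 | L / 6 ≤ ‖mat3 (H.AT (k.1 / N + b1) (k.2 / N + b2) (1 / N)).transpose u‖}.indicator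
        (fun u => ‖𝓕⁻ (MP H c N b1 b2 k) u‖ₑ) (y - u)) * ENNReal.ofReal A0 :=
        lintegral_mul_const' _ _ ENNReal.ofReal_ne_top
    _ = (∫⁻ u, {u : G.E3 | L / 6 ≤ ‖mat3 (H.AT (k.1 / N + b1) (k.2 / N + b2) (1 / N)).transpose u‖}.indicator
        (fun u => ‖𝓕⁻ (MP H c N b1 b2 k) u‖ₑ) u) * ENNReal.ofReal A0 := by
        congr 1
        exact lintegral_sub_left_eq_self (fun u => {u : G.E3 | L / 6 ≤ ‖mat3 (H.AT (k.1 / N + b1) (k.2 / N + b2) (1 / N)).transpose u‖}.indicator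
          (fun u => ‖𝓕⁻ (MP H c N b1 b2 k) u‖ₑ) u) y
    _ ≤ ENNReal.ofReal δ * ENNReal.ofReal A0 := by gcongr
    _ = _ := by rw [ENNReal.ofReal_mul' hA0]

/-- weights -/
noncomputable def w6 (H : Hyp) (N : ℕ) (T b1 b2 : ℝ) (k : ℤ × ℤ) (x : G.E3) (y : G.E3) : ℝ≥0∞ :=
  ENNReal.ofReal (((1 + pg H N T b1 b2 k x y) ^ 6)⁻¹)

theorem w6_meas (H : Hyp) (N : ℕ) (T b1 b2 : ℝ) (k : ℤ × ℤ) (x : G.E3) : Measurable (w6 H N T b1 b2 k x) := by
  unfold w6
  have := pg_meas (H := H) (N := N) (T := T) (b1 := b1) (b2 := b2) k x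
  fun_prop

/-- the pointwise splitting -/
theorem split_pw {H : Hyp} {c : ℝ} {N : ℕ} {T b1 b2 : ℝ} (hT1 : 1 ≤ T) {k : ℤ × ℤ} (hsm : Sm (MP H c N b1 b2 k)) {L δ A0 A1 : ℝ}
    (hδ : 0 ≤ δ) (hA1 : 0 ≤ A1) (hL : 2 ≤ L)
    (hT : ∫⁻ u : G.E3, {u : G.E3 | L / 6 ≤ ‖mat3 (H.AT (k.1 / N + b1) (k.2 / N + b2) (1 / N)).transpose u‖}.indicator
      (fun u => ‖𝓕⁻ (MP H c N b1 b2 k) u‖ₑ) u ≤ ENNReal.ofReal δ) {f : G.E3 → ℂ}
    (hf : Adm volume f) (hA : ∀ x, ‖f x‖ ≤ A0) (hS : ∀ x, ‖mop (MP H c N b1 b2 k) f x‖ₑ ≤ ENNReal.ofReal A1)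
    {W : Set G.E3} (hW : MeasurableSet W) {x : G.E3}
    (hWx : ∀ y, pg H N T b1 b2 k x y ≤ L → y ∈ W) {M : ℕ} (hM : 6 ≤ M) (y : G.E3) :
    ‖mop (MP H c N b1 b2 k) f y‖ₑ ^ 2 * ENNReal.ofReal (((1 + pg H N T b1 b2 k x y) ^ M)⁻¹) ≤
      2 * (‖mop (MP H c N b1 b2 k) (W.indicator f) y‖ₑ ^ 2 * w6 H N T b1 b2 k x y) +
      ENNReal.ofReal (2 * (δ * A0) ^ 2 + A1 ^ 2 * ((L / 2) ^ (M - 6))⁻¹) * w6 H N T b1 b2 k x y := by
  have hA0 : 0 ≤ A0 := (norm_nonneg _).trans (hA 0)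
  have hp := pg_nonneg (H := H) (N := N) (b1 := b1) (b2 := b2) hT1 k x y
  set p := pg H N T b1 b2 k x y with hpd
  have hfa : Adm volume (W.indicator f) := adm_ind hf hW
  have hfb : Adm volume (Wᶜ.indicator f) := adm_ind hf hW.compl
  have hsum : f = fun x => W.indicator f x + Wᶜ.indicator f x := by
    ext x
    have := congrFun (indicator_self_add_compl W f) x
    simpa using this.symm
  have hadd : mop (MP H c N b1 b2 k) f y = mop (MP H c N b1 b2 k) (W.indicator f) y + mop (MP H c N b1 b2 k) (Wᶜ.indicator f) y := by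
    rw [← mop_add hsm hfa hfb, ← hsum]
  have hw : ENNReal.ofReal (((1 + p) ^ M)⁻¹) ≤ w6 H N T b1 b2 k x y := by
    unfold w6
    apply ENNReal.ofReal_le_ofReal
    exact inv_anti₀ (by positivity) (pow_le_pow_right₀ (by linarith) hM)
  by_cases hy : p ≤ L / 2
  · have hfar := far_pg hT1 hsm hT hf hA hW hWx hy
    calc ‖mop (MP H c N b1 b2 k) f y‖ₑ ^ 2 * ENNReal.ofReal (((1 + p) ^ M)⁻¹) ≤
        (2 * ‖mop (MP H c N b1 b2 k) (W.indicator f) y‖ₑ ^ 2 + 2 * ENNReal.ofReal (δ * A0) ^ 2) * w6 H N T b1 b2 k x y := by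
          refine mul_le_mul' ?_ hw
          rw [hadd]
          refine (two_sq _ _).trans ?_
          gcongr
      _ = 2 * (‖mop (MP H c N b1 b2 k) (W.indicator f) y‖ₑ ^ 2 * w6 H N T b1 b2 k x y) +
          ENNReal.ofReal (2 * (δ * A0) ^ 2) * w6 H N T b1 b2 k x y := by
          rw [ENNReal.ofReal_mul (q := (δ * A0) ^ 2) (by norm_num), ENNReal.ofReal_pow (by positivity),
            show ENNReal.ofReal 2 = 2 by norm_num]
          ring
      _ ≤ _ := by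
          gcongr
          have : 0 ≤ A1 ^ 2 * ((L / 2) ^ (M - 6))⁻¹ := by positivity
          linarith
  · push Not at hy
    refine le_trans ?_ (le_add_left le_rfl)
    have h1 : ENNReal.ofReal (((1 + p) ^ M)⁻¹) ≤ ENNReal.ofReal (((L / 2) ^ (M - 6))⁻¹) * w6 H N T b1 b2 k x y := by
      unfold w6
      rw [← ENNReal.ofReal_mul (by positivity)]
      apply ENNReal.ofReal_le_ofReal
      have e1 : (1 + p) ^ M = (1 + p) ^ (M - 6) * (1 + p) ^ 6 := by rw [← pow_add]; congr 1; omega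
      rw [e1, mul_inv]
      gcongr
      linarith
    calc ‖mop (MP H c N b1 b2 k) f y‖ₑ ^ 2 * ENNReal.ofReal (((1 + p) ^ M)⁻¹) ≤
        ENNReal.ofReal A1 ^ 2 * (ENNReal.ofReal (((L / 2) ^ (M - 6))⁻¹) * w6 H N T b1 b2 k x y) := by
          refine mul_le_mul' ?_ h1
          gcongr
          exact hS y
      _ = ENNReal.ofReal (A1 ^ 2 * ((L / 2) ^ (M - 6))⁻¹) * w6 H N T b1 b2 k x y := by
          rw [ENNReal.ofReal_mul (q := ((L / 2) ^ (M - 6))⁻¹) (by positivity), ENNReal.ofReal_pow hA1]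
          ring
      _ ≤ _ := by
          gcongr
          have : 0 ≤ 2 * (δ * A0) ^ 2 := by positivity
          linarith

/-- numbers -/
theorem num_bd {K M N : ℕ} {L C1 B0 A0 : ℝ} (hL : 2 ≤ L) (hN : (N:ℝ) ≤ L ^ K) (hM : 2 * K + 6 ≤ M) (hC1 : 0 ≤ C1) (hB0 : 0 ≤ B0) :
    (N:ℝ) ^ 2 * (2 * (C1 * ((L / 6) ^ K)⁻¹ * A0) ^ 2 + (B0 * A0) ^ 2 * ((L / 2) ^ (M - 6))⁻¹) ≤
      (2 * C1 ^ 2 * 36 ^ K + B0 ^ 2 * 4 ^ K) * A0 ^ 2 := by
  have hL0 : 0 < L := by linarith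
  have hN0 : (0:ℝ) ≤ N := Nat.cast_nonneg _
  have h1 : (N:ℝ) ^ 2 ≤ (L ^ K) ^ 2 := pow_le_pow_left₀ hN0 hN 2
  have e1 : (L ^ K) ^ 2 * (2 * (C1 * ((L / 6) ^ K)⁻¹ * A0) ^ 2) = 2 * C1 ^ 2 * 36 ^ K * A0 ^ 2 := by
    have : (36:ℝ) ^ K = (6 ^ K) ^ 2 := by rw [← pow_mul, mul_comm, pow_mul]; norm_num
    rw [this, div_pow]
    field_simp
  have e2 : (L ^ K) ^ 2 * ((L / 2) ^ (M - 6))⁻¹ ≤ 4 ^ K := by
    have h2 : ((L / 2) ^ (2 * K)) ≤ (L / 2) ^ (M - 6) := pow_le_pow_right₀ (by linarith) (by omega)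
    have h3 : (0:ℝ) < (L / 2) ^ (2 * K) := by positivity
    have h4 : (4:ℝ) ^ K = (2 ^ K) ^ 2 := by rw [← pow_mul, mul_comm, pow_mul]; norm_num
    calc (L ^ K) ^ 2 * ((L / 2) ^ (M - 6))⁻¹ ≤ (L ^ K) ^ 2 * ((L / 2) ^ (2 * K))⁻¹ := by gcongr
      _ = 4 ^ K := by
          rw [h4, div_pow, mul_comm 2 K, pow_mul, pow_mul]
          field_simp
  have e3 : 0 ≤ 2 * (C1 * ((L / 6) ^ K)⁻¹ * A0) ^ 2 := by positivity
  have e4 : 0 ≤ (B0 * A0) ^ 2 * ((L / 2) ^ (M - 6))⁻¹ := by positivity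
  calc _ ≤ (L ^ K) ^ 2 * (2 * (C1 * ((L / 6) ^ K)⁻¹ * A0) ^ 2 + (B0 * A0) ^ 2 * ((L / 2) ^ (M - 6))⁻¹) := by gcongr
    _ = (L ^ K) ^ 2 * (2 * (C1 * ((L / 6) ^ K)⁻¹ * A0) ^ 2) + (B0 * A0) ^ 2 * ((L ^ K) ^ 2 * ((L / 2) ^ (M - 6))⁻¹) := by ring
    _ ≤ 2 * C1 ^ 2 * 36 ^ K * A0 ^ 2 + (B0 * A0) ^ 2 * 4 ^ K := by rw [e1]; gcongr
    _ = _ := by ring

/-- **[BESD]** -/
theorem stBESD : StBESD := by
  classical
  intro c K hc hc1
  refine ⟨2 * K + 6, ?_⟩
  intro M B hM hB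
  obtain ⟨C1, hC1, hT⟩ := tail_pb hc hc1 K
  obtain ⟨BK, hBK, hkn⟩ := kn_MP hc hc1
  set w := (cW 4).toReal with hw
  have hwe : cW 4 = ENNReal.ofReal w := (ENNReal.ofReal_toReal cW4.ne).symm
  have hw0 : 0 ≤ w := ENNReal.toReal_nonneg
  set v := v1.toReal with hv
  have hve : v1 = ENNReal.ofReal v := (ENNReal.ofReal_toReal v1_lt.ne).symm
  have hv0 : 0 < v := ENNReal.toReal_pos v1_pos.ne' v1_lt.ne
  refine ⟨2 * B + 64 * B * w / v * (2 * C1 ^ 2 * 36 ^ K + BK ^ 2 * 4 ^ K), by positivity, ?_⟩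
  intro H N T L b1 b2 A0 h0 hH hN hT1 hL hNL hf hA ι U k x hU hov
  have hA0 : 0 ≤ A0 := (norm_nonneg _).trans (hA 0)
  have hL0 : 0 < L := by linarith
  set W : Set G.E3 := {y : G.E3 | ∃ S ∈ U, pg H N T b1 b2 (k S) (x S) y ≤ L} with hWd
  have hWm : MeasurableSet W := by
    have e : W = ⋃ S ∈ U, {y : G.E3 | pg H N T b1 b2 (k S) (x S) y ≤ L} := by
      ext y; simp [hWd]
    rw [e]
    exact Finset.measurableSet_biUnion _ fun S _ => (isClosed_le (pg_cont (k S) (x S)) continuous_const).measurableSet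
  set s := U.image k with hs
  have hsg : s ⊆ grd N := by
    intro k0 hk0
    obtain ⟨S, hS, rfl⟩ := Finset.mem_image.1 hk0
    exact (hU S hS).1
  have hsC : ∀ k0 ∈ s, Cap (k0.1 / N + b1) (k0.2 / N + b2) (1 / N) := by
    intro k0 hk0
    obtain ⟨S, hS, rfl⟩ := Finset.mem_image.1 hk0
    exact (hU S hS).2
  have hcard : (s.card : ℝ) ≤ (N:ℝ) ^ 2 := by
    have h1 := Finset.card_le_card hsg
    have h2 : (grd N).card = N * N := by
      unfold grd
      rw [Finset.card_product]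
      simp
    rw [h2] at h1
    have : (s.card : ℝ) ≤ ((N * N : ℕ) : ℝ) := by exact_mod_cast h1
    push_cast at this
    nlinarith
  set δ := C1 * ((L / 6) ^ K)⁻¹ with hδd
  have hδ : 0 ≤ δ := by positivity
  set A1 := BK * A0 with hA1d
  have hA1 : 0 ≤ A1 := by positivity
  set E := 2 * (δ * A0) ^ 2 + A1 ^ 2 * ((L / 2) ^ (M - 6))⁻¹ with hE
  have hE0 : 0 ≤ E := by positivity
  set g := W.indicator h0 with hg
  have hga : Adm volume g := adm_ind hf hWm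
  have hgm : ∀ S ∈ U, Continuous (mop (MP H c N b1 b2 (k S)) g) := fun S hS => mop_cont (sm_MP hH hc hc1 (hU S hS).2) hga
  -- the near part
  have near : ∑ S ∈ U, ∫⁻ y, ‖mop (MP H c N b1 b2 (k S)) g y‖ₑ ^ 2 * w6 H N T b1 b2 (k S) (x S) y ≤
      ENNReal.ofReal (B * A0 ^ 2) * volume W := by
    have e1 : ∑ S ∈ U, ∫⁻ y, ‖mop (MP H c N b1 b2 (k S)) g y‖ₑ ^ 2 * w6 H N T b1 b2 (k S) (x S) y =
        ∑ k0 ∈ s, ∫⁻ y, ‖mop (MP H c N b1 b2 k0) g y‖ₑ ^ 2 * ∑ S ∈ U, (if k S = k0 then w6 H N T b1 b2 k0 (x S) y else 0) := by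
      rw [← Finset.sum_fiberwise_of_maps_to (s := U) (t := s) (g := k) (fun S hS => Finset.mem_image_of_mem k hS)]
      refine Finset.sum_congr rfl fun k0 hk0 => ?_
      have hm0 : Measurable (mop (MP H c N b1 b2 k0) g) := (mop_cont (sm_MP hH hc hc1 (hsC k0 hk0)) hga).measurable
      have e2 : ∀ y, ‖mop (MP H c N b1 b2 k0) g y‖ₑ ^ 2 * ∑ S ∈ U, (if k S = k0 then w6 H N T b1 b2 k0 (x S) y else 0) =
          ∑ S ∈ U.filter (fun S => k S = k0), ‖mop (MP H c N b1 b2 k0) g y‖ₑ ^ 2 * w6 H N T b1 b2 k0 (x S) y := by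
        intro y
        rw [← Finset.sum_filter, Finset.mul_sum]
      simp_rw [e2]
      have e3 := lintegral_finset_sum (μ := volume) (U.filter (fun S => k S = k0))
        (f := fun S y => ‖mop (MP H c N b1 b2 k0) g y‖ₑ ^ 2 * w6 H N T b1 b2 k0 (x S) y)
        (fun S _ => (hm0.enorm.pow_const 2).mul (w6_meas H N T b1 b2 k0 (x S)))
      refine Eq.trans ?_ e3.symm
      refine Finset.sum_congr rfl fun S hS => ?_
      rw [(Finset.mem_filter.1 hS).2]
    rw [e1]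
    calc ∑ k0 ∈ s, ∫⁻ y, ‖mop (MP H c N b1 b2 k0) g y‖ₑ ^ 2 * ∑ S ∈ U, (if k S = k0 then w6 H N T b1 b2 k0 (x S) y else 0) ≤
        ∑ k0 ∈ s, ∫⁻ y, ENNReal.ofReal B * ‖mop (MP H c N b1 b2 k0) g y‖ₑ ^ 2 := by
          refine Finset.sum_le_sum fun k0 _ => lintegral_mono fun y => ?_
          rw [mul_comm]
          exact mul_le_mul' (hov k0 y) le_rfl
      _ = ENNReal.ofReal B * ∑ k0 ∈ s, ∫⁻ y, ‖mop (MP H c N b1 b2 k0) g y‖ₑ ^ 2 := by
          rw [Finset.mul_sum]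
          exact Finset.sum_congr rfl fun k0 _ => lintegral_const_mul' _ _ ENNReal.ofReal_ne_top
      _ ≤ ENNReal.ofReal B * ∫⁻ y, ‖g y‖ₑ ^ 2 := by
          gcongr
          exact sum_MP_L2 hH hc hc1 hN hsg hsC hga
      _ ≤ ENNReal.ofReal B * ∫⁻ y, W.indicator (fun _ => ENNReal.ofReal (A0 ^ 2)) y := by
          gcongr with y
          by_cases hy : y ∈ W
          · rw [hg, indicator_of_mem hy, indicator_of_mem hy, ← ofReal_norm, ← ENNReal.ofReal_pow (norm_nonneg _)]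
            exact ENNReal.ofReal_le_ofReal (pow_le_pow_left₀ (norm_nonneg _) (hA y) 2)
          · rw [hg, indicator_of_notMem hy]; simp
      _ = _ := by
          rw [lintegral_indicator hWm, setLIntegral_const, ← mul_assoc, ← ENNReal.ofReal_mul hB]
  -- the mass of the weights
  have plate : ∀ k0 ∈ s, ∑ S ∈ U.filter (fun S => k S = k0), volume {y : G.E3 | pg H N T b1 b2 k0 (x S) y ≤ 1} ≤
      ENNReal.ofReal (64 * B) * volume W := by
    intro k0 hk0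
    have hms : ∀ S, MeasurableSet {y : G.E3 | pg H N T b1 b2 k0 (x S) y ≤ 1} := fun S =>
      (isClosed_le (pg_cont k0 (x S)) continuous_const).measurableSet
    calc ∑ S ∈ U.filter (fun S => k S = k0), volume {y : G.E3 | pg H N T b1 b2 k0 (x S) y ≤ 1} =
        ∫⁻ y, ∑ S ∈ U.filter (fun S => k S = k0), {y : G.E3 | pg H N T b1 b2 k0 (x S) y ≤ 1}.indicator 1 y := by
          rw [lintegral_finset_sum _ (fun S _ => measurable_one.indicator (hms S))]
          exact Finset.sum_congr rfl fun S _ => (lintegral_indicator_one (hms S)).symm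
      _ ≤ ∫⁻ y, W.indicator (fun _ => ENNReal.ofReal (64 * B)) y := by
          refine lintegral_mono fun y => ?_
          by_cases hy : y ∈ W
          · rw [indicator_of_mem hy]
            calc ∑ S ∈ U.filter (fun S => k S = k0), {y : G.E3 | pg H N T b1 b2 k0 (x S) y ≤ 1}.indicator (1 : G.E3 → ℝ≥0∞) y ≤
                ∑ S ∈ U.filter (fun S => k S = k0), ENNReal.ofReal 64 * w6 H N T b1 b2 k0 (x S) y := by
                  refine Finset.sum_le_sum fun S _ => ?_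
                  by_cases h1 : pg H N T b1 b2 k0 (x S) y ≤ 1
                  · rw [indicator_of_mem (show y ∈ {y : G.E3 | pg H N T b1 b2 k0 (x S) y ≤ 1} from h1)]
                    unfold w6
                    rw [← ENNReal.ofReal_mul (by norm_num), Pi.one_apply, ← ENNReal.ofReal_one]
                    apply ENNReal.ofReal_le_ofReal
                    have hp := pg_nonneg (H := H) (N := N) (b1 := b1) (b2 := b2) hT1 k0 (x S) y
                    rw [← div_eq_mul_inv, le_div_iff₀ (by positivity), one_mul]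
                    calc (1 + pg H N T b1 b2 k0 (x S) y) ^ 6 ≤ 2 ^ 6 := pow_le_pow_left₀ (by linarith) (by linarith) 6
                      _ = 64 := by norm_num
                  · rw [indicator_of_notMem (show y ∉ {y : G.E3 | pg H N T b1 b2 k0 (x S) y ≤ 1} from h1)]
                    exact zero_le
              _ = ENNReal.ofReal 64 * ∑ S ∈ U, (if k S = k0 then w6 H N T b1 b2 k0 (x S) y else 0) := by
                  rw [← Finset.mul_sum, Finset.sum_filter]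
              _ ≤ ENNReal.ofReal 64 * ENNReal.ofReal B := by
                  gcongr
                  exact hov k0 y
              _ = _ := by rw [← ENNReal.ofReal_mul (by norm_num)]
          · rw [indicator_of_notMem hy]
            refine le_of_eq (Finset.sum_eq_zero fun S hS => ?_)
            rw [indicator_of_notMem]
            intro h1
            apply hy
            obtain ⟨hS1, hS2⟩ := Finset.mem_filter.1 hS
            refine ⟨S, hS1, ?_⟩
            rw [hS2]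
            have : pg H N T b1 b2 k0 (x S) y ≤ 1 := h1
            linarith
      _ = _ := by rw [lintegral_indicator hWm, setLIntegral_const]
  have mass : ∑ S ∈ U, ∫⁻ y, w6 H N T b1 b2 (k S) (x S) y ≤ ENNReal.ofReal ((N:ℝ) ^ 2 * (64 * B * w / v)) * volume W := by
    have e0 : ∀ S ∈ U, ∫⁻ y, w6 H N T b1 b2 (k S) (x S) y ≤ ENNReal.ofReal (w / v) * volume {y : G.E3 | pg H N T b1 b2 (k S) (x S) y ≤ 1} := by
      intro S hS
      have h := int_pg hH hT1 (hU S hS).2 (x S)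
      rw [hwe, hve] at h
      have h2 : ENNReal.ofReal v⁻¹ * (ENNReal.ofReal v * ∫⁻ y, ENNReal.ofReal (((1 + pg H N T b1 b2 (k S) (x S) y) ^ 6)⁻¹)) ≤
          ENNReal.ofReal v⁻¹ * (ENNReal.ofReal w * volume {y : G.E3 | pg H N T b1 b2 (k S) (x S) y ≤ 1}) := mul_le_mul' le_rfl h
      rw [← mul_assoc, ← mul_assoc, ← ENNReal.ofReal_mul (by positivity), ← ENNReal.ofReal_mul (by positivity), inv_mul_cancel₀ hv0.ne',
        ENNReal.ofReal_one, one_mul] at h2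
      have e : v⁻¹ * w = w / v := by field_simp
      rw [e] at h2
      exact h2
    calc ∑ S ∈ U, ∫⁻ y, w6 H N T b1 b2 (k S) (x S) y ≤ ∑ S ∈ U, ENNReal.ofReal (w / v) * volume {y : G.E3 | pg H N T b1 b2 (k S) (x S) y ≤ 1} :=
          Finset.sum_le_sum e0
      _ = ∑ k0 ∈ s, ENNReal.ofReal (w / v) * ∑ S ∈ U.filter (fun S => k S = k0), volume {y : G.E3 | pg H N T b1 b2 k0 (x S) y ≤ 1} := by
          rw [← Finset.sum_fiberwise_of_maps_to (s := U) (t := s) (g := k) (fun S hS => Finset.mem_image_of_mem k hS)]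
          refine Finset.sum_congr rfl fun k0 _ => ?_
          rw [Finset.mul_sum]
          refine Finset.sum_congr rfl fun S hS => ?_
          rw [(Finset.mem_filter.1 hS).2]
      _ ≤ ∑ k0 ∈ s, ENNReal.ofReal (w / v) * (ENNReal.ofReal (64 * B) * volume W) := by
          refine Finset.sum_le_sum fun k0 hk0 => ?_
          gcongr
          exact plate k0 hk0
      _ = s.card * (ENNReal.ofReal (w / v) * (ENNReal.ofReal (64 * B) * volume W)) := by
          rw [Finset.sum_const, nsmul_eq_mul]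
      _ ≤ ENNReal.ofReal ((N:ℝ) ^ 2) * (ENNReal.ofReal (w / v) * (ENNReal.ofReal (64 * B) * volume W)) := by
          gcongr
          rw [← ENNReal.ofReal_natCast]
          exact ENNReal.ofReal_le_ofReal hcard
      _ = _ := by
          rw [← mul_assoc, ← mul_assoc, ← ENNReal.ofReal_mul (by positivity), ← ENNReal.ofReal_mul (by positivity)]
          congr 2
          ring
  -- assembly
  calc ∑ S ∈ U, ∫⁻ y, ‖mop (MP H c N b1 b2 (k S)) h0 y‖ₑ ^ 2 * ENNReal.ofReal (((1 + pg H N T b1 b2 (k S) (x S) y) ^ M)⁻¹) ≤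
      ∑ S ∈ U, ∫⁻ y, (2 * (‖mop (MP H c N b1 b2 (k S)) g y‖ₑ ^ 2 * w6 H N T b1 b2 (k S) (x S) y) +
        ENNReal.ofReal E * w6 H N T b1 b2 (k S) (x S) y) := by
        refine Finset.sum_le_sum fun S hS => lintegral_mono fun y => ?_
        have hsm := sm_MP (H := H) (N := N) (b1 := b1) (b2 := b2) (k := k S) hH hc hc1 (hU S hS).2
        refine split_pw hT1 hsm hδ hA1 hL ?_ hf hA ?_ hWm (fun z hz => ⟨S, hS, hz⟩) (by omega) y
        · exact hT H N b1 b2 (k S) (L / 6) hH (hU S hS).2 (by positivity)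
        · intro z
          exact mop_sup hsm hf (hkn H N b1 b2 (k S) hH (hU S hS).2) hA z
    _ = 2 * (∑ S ∈ U, ∫⁻ y, ‖mop (MP H c N b1 b2 (k S)) g y‖ₑ ^ 2 * w6 H N T b1 b2 (k S) (x S) y) +
        ENNReal.ofReal E * ∑ S ∈ U, ∫⁻ y, w6 H N T b1 b2 (k S) (x S) y := by
        rw [Finset.mul_sum, Finset.mul_sum, ← Finset.sum_add_distrib]
        refine Finset.sum_congr rfl fun S hS => ?_
        rw [lintegral_add_left, lintegral_const_mul' _ _ (by norm_num), lintegral_const_mul' _ _ ENNReal.ofReal_ne_top]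
        exact (((hgm S hS).measurable.enorm.pow_const 2).mul (w6_meas H N T b1 b2 (k S) (x S))).const_mul _
    _ ≤ 2 * (ENNReal.ofReal (B * A0 ^ 2) * volume W) +
        ENNReal.ofReal E * (ENNReal.ofReal ((N:ℝ) ^ 2 * (64 * B * w / v)) * volume W) := by
        gcongr
    _ = ENNReal.ofReal (2 * (B * A0 ^ 2) + E * ((N:ℝ) ^ 2 * (64 * B * w / v))) * volume W := by
        have q1 : ENNReal.ofReal (2 * (B * A0 ^ 2)) = 2 * ENNReal.ofReal (B * A0 ^ 2) := by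
          rw [ENNReal.ofReal_mul (by norm_num : (0:ℝ) ≤ 2)]; norm_num
        have q2 : ENNReal.ofReal (E * ((N:ℝ) ^ 2 * (64 * B * w / v))) =
            ENNReal.ofReal E * ENNReal.ofReal ((N:ℝ) ^ 2 * (64 * B * w / v)) := ENNReal.ofReal_mul hE0
        have q3 : ENNReal.ofReal (2 * (B * A0 ^ 2) + E * ((N:ℝ) ^ 2 * (64 * B * w / v))) =
            ENNReal.ofReal (2 * (B * A0 ^ 2)) + ENNReal.ofReal (E * ((N:ℝ) ^ 2 * (64 * B * w / v))) :=
          ENNReal.ofReal_add (by positivity) (by positivity)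
        rw [q3, q1, q2]
        ring
    _ ≤ _ := by
        gcongr
        have h := num_bd (A0 := A0) hL hNL hM hC1 hBK
        have h64 : 0 ≤ 64 * B * w / v := by positivity
        have e : E * ((N:ℝ) ^ 2 * (64 * B * w / v)) = 64 * B * w / v * ((N:ℝ) ^ 2 * E) := by ring
        rw [e]
        have h2 : 64 * B * w / v * ((N:ℝ) ^ 2 * E) ≤ 64 * B * w / v * ((2 * C1 ^ 2 * 36 ^ K + BK ^ 2 * 4 ^ K) * A0 ^ 2) := by
          refine mul_le_mul_of_nonneg_left ?_ h64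
          rw [hE, hδd, hA1d]
          exact h
        calc 2 * (B * A0 ^ 2) + 64 * B * w / v * ((N:ℝ) ^ 2 * E) ≤
            2 * (B * A0 ^ 2) + 64 * B * w / v * ((2 * C1 ^ 2 * 36 ^ K + BK ^ 2 * 4 ^ K) * A0 ^ 2) := by linarith
          _ = _ := by ring

end Vale.Agent.P106.W401
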