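import Vale.Agent.P106.W301.Lin
import Vale.Agent.P106.G.BrF
import Vale.Agent.P106.G.FinA

/-! # P106 / W2 : from the linear restricted estimate in one ball to the local smoothing estimate (helper401) -/

open MeasureTheory Complex Set Filter
open scoped ENNReal NNReal ContDiff FourierTransform Topology SchwartzMap

set_option linter.all false

namespace Vale.Agent.P106.W401

open Vale.Agent.P106.G Vale.Agent.P106.W301
open Vale.Agent.P117 (Adm)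

/-- the bilinear form of the restricted estimate, all balls -/
theorem lin_bi {P a : ℝ} (hP : 2 < P) (ha : 0 < a) (h : StLin P) : ∃ CB : ℝ, 0 ≤ CB ∧
    ∀ (R : ℝ) (H : Hyp) (h h' : E3 → ℂ) (G G' : Set E3) (y0 : E3), 1 ≤ R → H = H0 → Adm volume h → Adm volume h' →
      MeasurableSet G → MeasurableSet G' → volume G < ⊤ → volume G' < ⊤ →
      (∀ y, ‖h y‖ ≤ G.indicator (fun _ => (1:ℝ)) y) → (∀ y, ‖h' y‖ ≤ G'.indicator (fun _ => (1:ℝ)) y) →
      ∫⁻ t in Icc R (2 * R), ∫⁻ y in Metric.ball y0 R,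
        (‖H.U (H.mu (chi0 1) psv psv) h t y‖ₑ * ‖H.U (H.mu (chi0 1) psv psv) h' t y‖ₑ) ^ (P / 2) ≤
        ENNReal.ofReal (CB * R ^ (a * P + 1)) * (volume G * volume G') ^ (1/2 : ℝ) := by
  obtain ⟨C, hC, hL⟩ := h a ha
  refine ⟨C, hC, ?_⟩
  intro R H h h' G G' y0 hR hH hh hh' mG mG' tG tG' gh gh'
  subst hH
  have hRp : 0 < R := by linarith
  have hχ : Rcut (chi0 1) := (r1_chi0 one_pos le_rfl).toRcut
  have sM : Sm (H0.mu (chi0 1) psv psv) := sm_mu H0_ok2.ok hχ vcut_psv.vc vcut_psv.vc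
  set hs : E3 → ℂ := fun x => h (x + y0) with hhs
  set hs' : E3 → ℂ := fun x => h' (x + y0) with hhs'
  set Gs : Set E3 := (fun x => x + y0) ⁻¹' G with hGs
  set Gs' : Set E3 := (fun x => x + y0) ⁻¹' G' with hGs'
  have as := adm_shift hh y0
  have as' := adm_shift hh' y0
  have mGs : MeasurableSet Gs := (measurable_add_const y0) mG
  have mGs' : MeasurableSet Gs' := (measurable_add_const y0) mG'
  have vGs : volume Gs = volume G := measure_preimage_add_right volume y0 G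
  have vGs' : volume Gs' = volume G' := measure_preimage_add_right volume y0 G'
  have ghs : ∀ y, ‖hs y‖ ≤ Gs.indicator (fun _ => (1:ℝ)) y := fun y => gh (y + y0)
  have ghs' : ∀ y, ‖hs' y‖ ≤ Gs'.indicator (fun _ => (1:ℝ)) y := fun y => gh' (y + y0)
  have htr : ∫⁻ t in Icc R (2 * R), ∫⁻ y in Metric.ball y0 R,
      (‖H0.U (H0.mu (chi0 1) psv psv) h t y‖ₑ * ‖H0.U (H0.mu (chi0 1) psv psv) h' t y‖ₑ) ^ (P / 2) =
      ∫⁻ t in Icc R (2 * R), ∫⁻ y in Metric.ball (0:E3) R,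
      (‖H0.U (H0.mu (chi0 1) psv psv) hs t y‖ₑ * ‖H0.U (H0.mu (chi0 1) psv psv) hs' t y‖ₑ) ^ (P / 2) := by
    refine lintegral_congr fun t => ?_
    rw [lint_ball_shift]
    refine lintegral_congr fun y => ?_
    rw [hhs, hhs', U_shift, U_shift]
  rw [htr, ← vGs, ← vGs']
  rw [← vGs] at tG
  rw [← vGs'] at tG'
  have l1 := hL R hs Gs hR as mGs tG ghs
  have l2 := hL R hs' Gs' hR as' mGs' tG' ghs'
  have m1 : Measurable (fun z : ℝ × E3 => ‖H0.U (H0.mu (chi0 1) psv psv) hs z.1 z.2‖ₑ) :=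
    (cont_U H0 sM.int as.int).measurable.enorm
  have m2 : Measurable (fun z : ℝ × E3 => ‖H0.U (H0.mu (chi0 1) psv psv) hs' z.1 z.2‖ₑ) :=
    (cont_U H0 sM.int as'.int).measurable.enorm
  rw [lint_bx R 0 (F := fun t y => ‖H0.U (H0.mu (chi0 1) psv psv) hs t y‖ₑ ^ P) (m1.pow_const _)] at l1
  rw [lint_bx R 0 (F := fun t y => ‖H0.U (H0.mu (chi0 1) psv psv) hs' t y‖ₑ ^ P) (m2.pow_const _)] at l2
  rw [lint_bx R 0 (F := fun t y => (‖H0.U (H0.mu (chi0 1) psv psv) hs t y‖ₑ * ‖H0.U (H0.mu (chi0 1) psv psv) hs' t y‖ₑ) ^ (P / 2))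
    ((m1.mul m2).pow_const _)]
  have hcs := ENNReal.lintegral_mul_le_Lp_mul_Lq ((volume : Measure (ℝ × E3)).restrict (bx R 0)) Real.HolderConjugate.two_two
    (f := fun z => ‖H0.U (H0.mu (chi0 1) psv psv) hs z.1 z.2‖ₑ ^ (P / 2))
    (g := fun z => ‖H0.U (H0.mu (chi0 1) psv psv) hs' z.1 z.2‖ₑ ^ (P / 2)) (m1.pow_const _).aemeasurable (m2.pow_const _).aemeasurable
  have e1 : ∀ x : ℝ≥0∞, (x ^ (P / 2)) ^ (2:ℝ) = x ^ P := by
    intro x
    rw [← ENNReal.rpow_mul]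
    congr 1
    ring
  simp only [Pi.mul_apply, e1] at hcs
  have e2 : ∀ z : ℝ × E3, (‖H0.U (H0.mu (chi0 1) psv psv) hs z.1 z.2‖ₑ * ‖H0.U (H0.mu (chi0 1) psv psv) hs' z.1 z.2‖ₑ) ^ (P / 2) =
      ‖H0.U (H0.mu (chi0 1) psv psv) hs z.1 z.2‖ₑ ^ (P / 2) * ‖H0.U (H0.mu (chi0 1) psv psv) hs' z.1 z.2‖ₑ ^ (P / 2) := fun z =>
    ENNReal.mul_rpow_of_nonneg _ _ (by linarith)
  simp_rw [e2]
  refine hcs.trans ?_
  set Q := ENNReal.ofReal (C * R ^ (a * P + 1)) with hQ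
  calc _ ≤ (Q * volume Gs) ^ (1/2 : ℝ) * (Q * volume Gs') ^ (1/2 : ℝ) := by
        apply mul_le_mul'
        · exact ENNReal.rpow_le_rpow l1 (by norm_num)
        · exact ENNReal.rpow_le_rpow l2 (by norm_num)
    _ = (Q ^ (1/2 : ℝ) * Q ^ (1/2 : ℝ)) * (volume Gs * volume Gs') ^ (1/2 : ℝ) := by
        rw [ENNReal.mul_rpow_of_nonneg _ _ (by norm_num : (0:ℝ) ≤ 1/2), ENNReal.mul_rpow_of_nonneg _ _ (by norm_num : (0:ℝ) ≤ 1/2),
          ENNReal.mul_rpow_of_nonneg _ _ (by norm_num : (0:ℝ) ≤ 1/2)]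
        ring
    _ = _ := by
        rw [← ENNReal.rpow_add_of_nonneg _ _ (by norm_num) (by norm_num)]
        norm_num

/-- the global linear estimate -/
theorem lin_glob {P a : ℝ} (hP : 2 < P) (ha : 0 < a) (h : StLin P) : ∃ C : ℝ, 0 ≤ C ∧
    ∀ (R : ℝ) (h : E3 → ℂ), 1 ≤ R → Adm volume h →
      DI R (fun t y => ‖H0.U (H0.mu (chi0 1) psv psv) h t y‖ₑ ^ P) ≤
        ENNReal.ofReal (C * R ^ (a * P + 1)) * ∫⁻ y, ‖h y‖ₑ ^ P := by
  obtain ⟨CB, hCB, hB⟩ := lin_bi hP (show 0 < a / 2 by linarith) h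
  have hp0 : 0 < P := by linarith
  set α := a with hαd
  set α' := a / 2 with hα'd
  have hα' : 0 ≤ α' := by rw [hα'd]; linarith
  have hα : α' < α := by rw [hα'd, hαd]; linarith
  set δ := min 1 ((α - α') * P / 4) with hδd
  have hδ : 0 < δ := by
    rw [hδd]
    apply lt_min one_pos
    have : 0 < α - α' := by linarith
    positivity
  have hδ1 : δ ≤ 1 := min_le_left _ _
  have hδ2 : 4 * δ ≤ (α - α') * P := by
    have : δ ≤ (α - α') * P / 4 := min_le_right _ _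
    linarith
  have hok : ∀ H, H = H0 → H.ok := fun H hH => hH ▸ H0_ok2.ok
  obtain ⟨C, hC, h1⟩ := one_ball (ok := fun H => H = H0) hok hP hα' one_pos le_rfl hδ hδ1 vcut_psv vcut_psv vcut_psv vcut_psv hCB hB
  obtain ⟨C4, hC4, hw⟩ := wl_int
  set v := (volume (Metric.ball (0:E3) 1)).toReal with hv
  have hv0 : 0 < v := ENNReal.toReal_pos (Metric.measure_ball_pos _ _ one_pos).ne' measure_ball_lt_top.ne
  refine ⟨8 * C * C4 / v, by positivity, ?_⟩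
  intro R h hR hh
  have hR0 : 0 < R := by linarith
  have hHok := H0_ok2.ok
  have hχ : Rcut (chi0 1) := (r1_chi0 one_pos le_rfl).toRcut
  have sM : Sm (H0.mu (chi0 1) psv psv) := sm_mu hHok hχ vcut_psv.vc vcut_psv.vc
  set F : ℝ × E3 → ℝ≥0∞ := fun z => (‖H0.U (H0.mu (chi0 1) psv psv) h z.1 z.2‖ₑ *
    ‖H0.U (H0.mu (chi0 1) psv psv) h z.1 z.2‖ₑ) ^ (P / 2) with hF
  have hFm : Measurable F := ((cont_U H0 sM.int hh.int).measurable.enorm.mul
    (cont_U H0 sM.int hh.int).measurable.enorm).pow_const _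
  have h2 := cover R hFm
  set L := ∫⁻ t in Icc R (2 * R), ∫⁻ y, F (t, y) with hL
  have hρ0 : 0 < 2 * R ^ (1 + δ) := by positivity
  have h3 : L * volume (Metric.ball (0:E3) R) ≤ ENNReal.ofReal (C * R ^ (α' * P + 1 + δ)) *
      (ENNReal.ofReal (C4 * (2 * R ^ (1 + δ)) ^ 3) * ∫⁻ x, ‖h x‖ₑ ^ P) := by
    rw [← h2]
    calc ∫⁻ y0 : E3, ∫⁻ z in bx R y0, F z ≤ ∫⁻ y0 : E3, ENNReal.ofReal (C * R ^ (α' * P + 1 + δ)) *
          ∫⁻ x, ENNReal.ofReal (wl (2 * R ^ (1 + δ)) (x - y0)) * ‖h x‖ₑ ^ P :=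
          lintegral_mono fun y0 => h1 R H0 h y0 hR rfl hh
      _ = ENNReal.ofReal (C * R ^ (α' * P + 1 + δ)) * ∫⁻ y0 : E3,
          ∫⁻ x, ENNReal.ofReal (wl (2 * R ^ (1 + δ)) (x - y0)) * ‖h x‖ₑ ^ P :=
          lintegral_const_mul' _ _ ENNReal.ofReal_ne_top
      _ ≤ _ := by
          gcongr
          exact cover_w hρ0 (hh.meas.enorm.pow_const P) (hw _ hρ0)
  have hball : volume (Metric.ball (0:E3) R) = ENNReal.ofReal (v * R ^ 3) := by
    have h4 := Measure.addHaar_ball (volume : Measure E3) (0:E3) hR0.le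
    simp only [finrank_euclideanSpace, Fintype.card_fin] at h4
    rw [h4, mul_comm v, ENNReal.ofReal_mul (by positivity), hv, ENNReal.ofReal_toReal measure_ball_lt_top.ne]
  rw [hball] at h3
  have h5 : L = L * ENNReal.ofReal (v * R ^ 3) * ENNReal.ofReal ((v * R ^ 3)⁻¹) := by
    rw [mul_assoc, ← ENNReal.ofReal_mul (by positivity), mul_inv_cancel₀ (by positivity), ENNReal.ofReal_one, mul_one]
  have hFe : ∀ t y, F (t, y) = ‖H0.U (H0.mu (chi0 1) psv psv) h t y‖ₑ ^ P := by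
    intro t y
    rw [hF]
    simp only
    rw [← pow_two, ← ENNReal.rpow_natCast, ← ENNReal.rpow_mul]
    congr 1
    push_cast
    ring
  have hLD : DI R (fun t y => ‖H0.U (H0.mu (chi0 1) psv psv) h t y‖ₑ ^ P) = L := by
    unfold DI
    rw [hL]
    simp_rw [hFe]
  calc DI R (fun t y => ‖H0.U (H0.mu (chi0 1) psv psv) h t y‖ₑ ^ P) = L := hLD
    _ ≤ ENNReal.ofReal (C * R ^ (α' * P + 1 + δ)) * (ENNReal.ofReal (C4 * (2 * R ^ (1 + δ)) ^ 3) * ∫⁻ x, ‖h x‖ₑ ^ P) *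
        ENNReal.ofReal ((v * R ^ 3)⁻¹) := by
        rw [h5]
        gcongr
    _ = ENNReal.ofReal (C * R ^ (α' * P + 1 + δ) * (C4 * (2 * R ^ (1 + δ)) ^ 3) * (v * R ^ 3)⁻¹) * ∫⁻ x, ‖h x‖ₑ ^ P := by
        rw [ENNReal.ofReal_mul (p := C * R ^ (α' * P + 1 + δ) * (C4 * (2 * R ^ (1 + δ)) ^ 3)) (by positivity),
          ENNReal.ofReal_mul (p := C * R ^ (α' * P + 1 + δ)) (by positivity)]
        ring
    _ ≤ _ := by
        refine mul_le_mul' (ENNReal.ofReal_le_ofReal ?_) le_rfl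
        have e1 : (2 * R ^ (1 + δ)) ^ 3 = 8 * (R ^ 3 * R ^ (3 * δ)) := by
          have : (R ^ (1 + δ)) ^ 3 = R ^ 3 * R ^ (3 * δ) := by
            rw [← Real.rpow_natCast, ← Real.rpow_mul hR0.le, ← Real.rpow_natCast R 3, ← Real.rpow_add hR0]
            congr 1
            push_cast
            ring
          rw [mul_pow, this]
          ring
        have e2 : R ^ (α' * P + 1 + δ) * R ^ (3 * δ) ≤ R ^ (α * P + 1) := by
          rw [← Real.rpow_add hR0]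
          apply Real.rpow_le_rpow_of_exponent_le hR
          nlinarith
        rw [e1]
        calc C * R ^ (α' * P + 1 + δ) * (C4 * (8 * (R ^ 3 * R ^ (3 * δ)))) * (v * R ^ 3)⁻¹ =
            8 * C * C4 / v * (R ^ (α' * P + 1 + δ) * R ^ (3 * δ)) := by
              field_simp
          _ ≤ _ := by gcongr

/-- all positive times -/
theorem lin_all {p α c0 : ℝ} (hp : 1 ≤ p) (hc0 : 0 < c0) (hc1 : c0 ≤ 1) (h : ∃ C : ℝ, 0 ≤ C ∧
    ∀ (R : ℝ) (h : E3 → ℂ), 1 ≤ R → Adm volume h →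
      DI R (fun t y => ‖H0.U (H0.mu (chi0 c0) psv psv) h t y‖ₑ ^ p) ≤
        ENNReal.ofReal (C * R ^ (α * p + 1)) * ∫⁻ y, ‖h y‖ₑ ^ p) :
    ∃ C : ℝ, 0 ≤ C ∧ ∀ (R : ℝ) (h : E3 → ℂ), 0 < R → Adm volume h →
      DI R (fun t y => ‖H0.U (H0.mu (chi0 c0) psv psv) h t y‖ₑ ^ p) ≤
        ENNReal.ofReal (C * (R ^ (α * p + 1) + R)) * ∫⁻ y, ‖h y‖ₑ ^ p := by
  obtain ⟨C, hC, hC2⟩ := h
  obtain ⟨B, hB, hBk⟩ := ker_L1 (r1_chi0 hc0 hc1).toRcut vcut_psv.vc vcut_psv.vc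
  refine ⟨C + (B * 81) ^ p, by positivity, ?_⟩
  intro R h hR hh
  rcases le_or_gt 1 R with h1 | h1
  · refine (hC2 R h h1 hh).trans ?_
    apply mul_le_mul_left
    apply ENNReal.ofReal_le_ofReal
    have e1 : 0 ≤ (B * 81) ^ p := by positivity
    have e2 : 0 ≤ R ^ (α * p + 1) := by positivity
    nlinarith [mul_nonneg hC hR.le, mul_nonneg e1 e2, mul_nonneg e1 hR.le]
  · unfold DI
    calc ∫⁻ t in Icc R (2 * R), ∫⁻ y, ‖H0.U (H0.mu (chi0 c0) psv psv) h t y‖ₑ ^ p ≤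
          ∫⁻ t in Icc R (2 * R), ENNReal.ofReal ((B * 81) ^ p) * ∫⁻ y, ‖h y‖ₑ ^ p := by
            apply setLIntegral_mono' measurableSet_Icc
            intro t ht
            rw [U_eq]
            apply mop_Lp (sm_em H0_ok2.ok (r1_chi0 hc0 hc1).toRcut vcut_psv.vc vcut_psv.vc t) hh hp (by positivity)
            refine (hBk H0 H0_ok2.ok t).trans (ENNReal.ofReal_le_ofReal ?_)
            have h0 : 0 ≤ t := by linarith [ht.1]
            rw [abs_of_nonneg h0]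
            calc B * (1 + t) ^ 4 ≤ B * (3 : ℝ) ^ 4 := by
                  gcongr
                  linarith [ht.2]
              _ = _ := by ring
      _ = ENNReal.ofReal R * (ENNReal.ofReal ((B * 81) ^ p) * ∫⁻ y, ‖h y‖ₑ ^ p) := by
          rw [lintegral_const, Measure.restrict_apply MeasurableSet.univ, univ_inter, Real.volume_Icc, mul_comm]
          congr 2
          ring
      _ ≤ _ := by
          rw [← mul_assoc, ← ENNReal.ofReal_mul hR.le]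
          apply mul_le_mul_left
          apply ENNReal.ofReal_le_ofReal
          have e1 : 0 ≤ (B * 81) ^ p := by positivity
          have e2 : 0 ≤ R ^ (α * p + 1) := by positivity
          nlinarith [mul_nonneg hC hR.le, mul_nonneg e1 e2, mul_nonneg e1 hR.le, mul_nonneg hC e2]

theorem local_GL0 {p α c0 : ℝ} (hp : 2 < p) (hα : 0 < α) (hc0 : 0 < c0) (hc1 : c0 ≤ 1) (h : ∃ C : ℝ, 0 ≤ C ∧ ∀ (R : ℝ) (h : E3 → ℂ), 0 < R → Adm volume h →
      DI R (fun t y => ‖H0.U (H0.mu (chi0 c0) psv psv) h t y‖ₑ ^ p) ≤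
        ENNReal.ofReal (C * (R ^ (α * p + 1) + R)) * ∫⁻ y, ‖h y‖ₑ ^ p) {x0 : E3}
    (h0 : x0 ≠ 0) : ∃ r : ℝ, 0 < r ∧ ∀ X : E3 → ℂ, ContDiff ℝ ∞ X → (∀ ξ, X ξ ≠ 0 → ‖ξ - x0‖ < r) → StGL p α X := by
  obtain ⟨l, P, r, hl, hPd, hr, hP⟩ := coord_exists hc0 h0
  refine ⟨r, hr, ?_⟩
  intro X hX hXs
  have hPi : P⁻¹.det ≠ 0 := by
    rw [Matrix.det_nonsing_inv, Ring.inverse_eq_inv']
    exact inv_ne_zero hPd
  have hPt : P.transpose.det ≠ 0 := by rwa [Matrix.det_transpose]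
  have hPti : (P.transpose)⁻¹.det ≠ 0 := by
    rw [Matrix.det_nonsing_inv, Ring.inverse_eq_inv']
    exact inv_ne_zero hPt
  set M : E3 → ℂ := fun η => X (mat3 P η) with hM
  have hMs : ∀ η, M η ≠ 0 → ‖mat3 P η‖ = l * (32 * η 0 + H0.om η) ∧ H0.mu (chi0 c0) psv psv η = 1 :=
    fun η hη => hP η (hXs _ hη)
  have hMSm : Sm M := by
    refine ⟨hX.comp (LinearMap.toContinuousLinearMap (mat3 P)).contDiff, ?_⟩
    apply compact_of_supp (R := ‖LinearMap.toContinuousLinearMap (mat3 P⁻¹)‖ * (r + ‖x0‖))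
    intro η hη
    have h1 : ‖mat3 P η‖ ≤ r + ‖x0‖ := by
      calc ‖mat3 P η‖ = ‖(mat3 P η - x0) + x0‖ := by rw [sub_add_cancel]
        _ ≤ ‖mat3 P η - x0‖ + ‖x0‖ := norm_add_le _ _
        _ ≤ r + ‖x0‖ := by linarith [hXs _ hη]
    calc ‖η‖ = ‖LinearMap.toContinuousLinearMap (mat3 P⁻¹) (mat3 P η)‖ := by
          rw [LinearMap.coe_toContinuousLinearMap', mat3_inv_left hPd]
      _ ≤ ‖LinearMap.toContinuousLinearMap (mat3 P⁻¹)‖ * ‖mat3 P η‖ := ContinuousLinearMap.le_opNorm _ _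
      _ ≤ _ := by gcongr
  obtain ⟨C1, hC1, hD⟩ := h
  obtain ⟨B, hB, hBk⟩ := kn_fin hMSm
  have hp0 : 0 < p := by linarith
  have hex : 1 ≤ α * p + 1 := by nlinarith
  refine ⟨l⁻¹ * (|P.det⁻¹| * ((C1 * (l ^ (α * p + 1) + l)) * (B ^ p * |((P.transpose)⁻¹.det)⁻¹|))), by positivity, ?_⟩
  intro R f hR hf
  have hR0 : 0 < R := by linarith
  have hg : Adm volume (fun y => f (mat3 (P.transpose)⁻¹ y)) := adm_mat3 hPti hf
  set g := (fun y => f (mat3 (P.transpose)⁻¹ y)) with hgdef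
  have hgn : ∫⁻ y, ‖g y‖ₑ ^ p = ENNReal.ofReal |((P.transpose)⁻¹.det)⁻¹| * ∫⁻ x, ‖f x‖ₑ ^ p :=
    lintegral_mat3 hPti (fun x => ‖f x‖ₑ ^ p)
  have hw1 := wave_norm hPd hl (H := H0) (X := X) (fun η hη => (hMs η hη).1) f p R
  have e1 : (fun t y => ‖H0.U M g t y‖ₑ ^ p) = fun t y => ‖H0.U (H0.mu (chi0 c0) psv psv) (mop M g) t y‖ₑ ^ p := by
    ext t y
    rw [U_mopT hMSm (fun η hη => (hMs η hη).2) hg t y]
  rw [← hM, ← hgdef, e1] at hw1
  have h2 := hD (l * R) (mop M g) (by positivity) (mop_adm hMSm hg)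
  have h3 := mop_Lp hMSm hg (by linarith : 1 ≤ p) hB hBk
  rw [hgn] at h3
  change DI R (fun t x => ‖hw X f t x‖ₑ ^ p) ≤ _
  rw [hw1]
  calc _ ≤ ENNReal.ofReal l⁻¹ * (ENNReal.ofReal |P.det⁻¹| * (ENNReal.ofReal (C1 * ((l * R) ^ (α * p + 1) + l * R)) *
        (ENNReal.ofReal (B ^ p) * (ENNReal.ofReal |((P.transpose)⁻¹.det)⁻¹| * ∫⁻ x, ‖f x‖ₑ ^ p)))) := by
        gcongr
        exact h2.trans (by gcongr)
    _ = ENNReal.ofReal (l⁻¹ * (|P.det⁻¹| * ((C1 * ((l * R) ^ (α * p + 1) + l * R)) * (B ^ p * |((P.transpose)⁻¹.det)⁻¹|)))) *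
        ∫⁻ x, ‖f x‖ₑ ^ p := of5 (by positivity) (by positivity) (by positivity) (by positivity) (by positivity) _
    _ ≤ _ := by
        apply mul_le_mul_left
        apply ENNReal.ofReal_le_ofReal
        have e3 : (l * R) ^ (α * p + 1) + l * R ≤ (l ^ (α * p + 1) + l) * R ^ (α * p + 1) := by
          rw [Real.mul_rpow hl.le hR0.le, add_mul]
          gcongr
          calc R = R ^ (1:ℝ) := (Real.rpow_one R).symm
            _ ≤ _ := Real.rpow_le_rpow_of_exponent_le hR hex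
        have e4 : 0 ≤ B ^ p * |((P.transpose)⁻¹.det)⁻¹| := by positivity
        have e5 : C1 * ((l * R) ^ (α * p + 1) + l * R) ≤ C1 * ((l ^ (α * p + 1) + l) * R ^ (α * p + 1)) :=
          mul_le_mul_of_nonneg_left e3 hC1
        calc l⁻¹ * (|P.det⁻¹| * ((C1 * ((l * R) ^ (α * p + 1) + l * R)) * (B ^ p * |((P.transpose)⁻¹.det)⁻¹|))) ≤
              l⁻¹ * (|P.det⁻¹| * ((C1 * ((l ^ (α * p + 1) + l) * R ^ (α * p + 1))) * (B ^ p * |((P.transpose)⁻¹.det)⁻¹|))) :=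
              mul_le_mul_of_nonneg_left (mul_le_mul_of_nonneg_left (mul_le_mul_of_nonneg_right e5 e4) (abs_nonneg _))
                (by positivity)
          _ = _ := by ring

theorem top0 {p α c0 : ℝ} (hp : 2 < p) (hα : 0 < α) (hc0 : 0 < c0) (hc1 : c0 ≤ 1) (h : ∃ C : ℝ, 0 ≤ C ∧ ∀ (R : ℝ) (h : E3 → ℂ), 0 < R → Adm volume h →
      DI R (fun t y => ‖H0.U (H0.mu (chi0 c0) psv psv) h t y‖ₑ ^ p) ≤
        ENNReal.ofReal (C * (R ^ (α * p + 1) + R)) * ∫⁻ y, ‖h y‖ₑ ^ p) : StGLall p α := by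
  intro X hX hab
  obtain ⟨a, b, ha, hab⟩ := hab
  have hsm : Sm X := ⟨hX, compact_of_supp (fun ξ hξ => (hab ξ hξ).2)⟩
  have hloc : ∀ x : E3, ∃ r : ℝ, 0 < r ∧ (x ≠ 0 → ∀ X : E3 → ℂ, ContDiff ℝ ∞ X → (∀ ξ, X ξ ≠ 0 → ‖ξ - x‖ < r) → StGL p α X) := by
    intro x
    by_cases hx : x = 0
    · exact ⟨1, one_pos, fun h => absurd hx h⟩
    · obtain ⟨r, hr, hr2⟩ := local_GL0 hp hα hc0 hc1 h hx
      exact ⟨r, hr, fun _ => hr2⟩
  choose r hr hr2 using hloc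
  set K : Set E3 := {ξ | a ≤ ‖ξ‖ ∧ ‖ξ‖ ≤ b} with hK
  have hKc : IsCompact K := by
    apply (isCompact_closedBall (0:E3) b).of_isClosed_subset
    · exact (isClosed_le continuous_const continuous_norm).inter (isClosed_le continuous_norm continuous_const)
    · intro ξ hξ
      simpa using hξ.2
  obtain ⟨t, ht, hcov⟩ := hKc.elim_nhds_subcover (fun x => Metric.ball x (r x / 2))
    (fun x hx => Metric.ball_mem_nhds x (by have := hr x; positivity))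
  apply GL_cover (by linarith : 1 ≤ p) r hr t _ X hsm
  · intro ξ hξ
    have h1 := hcov (hab ξ hξ)
    rw [mem_iUnion₂] at h1
    obtain ⟨x, hx, hx2⟩ := h1
    exact ⟨x, hx, by rwa [mem_ball_iff_norm] at hx2⟩
  · intro x hx
    apply hr2 x
    intro h0
    have := (ht x hx).1
    rw [h0, norm_zero] at this
    linarith


/-- **[GL]** (helper301's [LIN] gives the frequency localized local smoothing estimate for every exponent) -/
theorem gl_of_lin {P : ℝ} (hP : 2 < P) (h : StLin P) : ∀ a > 0, G.StGL P a X0 := by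
  intro a ha
  refine top0 hP ha one_pos le_rfl (lin_all (by linarith) one_pos le_rfl (lin_glob hP ha h)) X0 contDiff_X0
    ⟨3/8, 3/2, by norm_num, ?_⟩
  intro ξ hξ
  exact q0_supp (r := ‖ξ‖) hξ

end Vale.Agent.P106.W401
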