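import Vale.Agent.P106.W301.BesD

/-! # P106 / W2 : [BESD], part A: kernels and gauges in the plank coordinates (helper401) -/

open MeasureTheory Complex Set Filter
open scoped ENNReal NNReal ContDiff FourierTransform Topology SchwartzMap

set_option linter.all false

namespace Vale.Agent.P106.W401

open Vale.Agent.P106.G
open Vale.Agent.P106.W301 (pg)
open Vale.Agent.P117 (Adm)

/-- plank coordinates as a matrix -/
theorem pb_mat (H : Hyp) (β1 β2 τ : ℝ) (u : G.E3) : mat3 (H.AT β1 β2 τ).transpose u = Pb β1 β2 τ (H.pt u) := by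
  have h := AT_Pb H β1 β2 τ 0 u 0
  have h0 : H.pt 0 = 0 := by apply ext4 <;> simp [Hyp.pt]
  rw [zero_smul, add_zero, map_zero, sub_zero, ← pt_zt, h0, sub_zero] at h
  exact h

section
variable {H : Hyp} (hH : H.ok2) {c : ℝ} (hc : 0 < c) (hc1 : c ≤ 1) {N : ℕ} (hN : 1 ≤ N) {b1 b2 : ℝ} {k : ℤ × ℤ}
  (hC : Cap (k.1 / N + b1) (k.2 / N + b2) (1 / N))

include hH hC in
theorem det_pos : 0 < (H.AT (k.1 / N + b1) (k.2 / N + b2) (1 / N)).det := by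
  have hm := cap_m hH hC
  have hm0 : 0 < H.m (k.1 / N + b1) (k.2 / N + b2) := by linarith [hm.1]
  exact AT_det_pos hm0 hC.pos

end

/-- kernel of the cap projection in the plank coordinates -/
theorem ker_pw {c : ℝ} (hc : 0 < c) (hc1 : c ≤ 1) (n : ℕ) : ∃ C : ℝ, 0 ≤ C ∧ ∀ (H : Hyp) (N : ℕ) (b1 b2 : ℝ) (k : ℤ × ℤ), H.ok2 →
    Cap (k.1 / N + b1) (k.2 / N + b2) (1 / N) → ∀ u : G.E3,
    ‖𝓕⁻ (MP H c N b1 b2 k) u‖ₑ ≤ ENNReal.ofReal (H.AT (k.1 / N + b1) (k.2 / N + b2) (1 / N)).det *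
      ENNReal.ofReal (C * ((1 + ‖mat3 (H.AT (k.1 / N + b1) (k.2 / N + b2) (1 / N)).transpose u‖) ^ n)⁻¹) := by
  obtain ⟨C1, hC1, hk⟩ := ker_bound (r1_chiP hc hc1).toRcut vcut_psvP.vc vcut_psvP.vc n
  refine ⟨C1, hC1, ?_⟩
  intro H N b1 b2 k hH hC u
  have hok := (cap_ok hH hC).ok
  have hdp := det_pos hH hC
  unfold MP
  set A := H.AT (k.1 / N + b1) (k.2 / N + b2) (1 / N) with hA
  rw [inv_AT hdp.ne', enorm_smul]
  have e0 : ‖|A.det|‖ₑ = ENNReal.ofReal A.det := by rw [← ofReal_norm, norm_abs_eq_norm, Real.norm_of_nonneg hdp.le]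
  rw [e0]
  refine mul_le_mul' le_rfl ?_
  have e1 : (fun ξ => H.mu (chiP c) (capP (k.1 / N + b1) (1 / N)) (capP (k.2 / N + b2) (1 / N)) (mat3 A ξ)) =
      (H.sub (k.1 / N + b1) (k.2 / N + b2) (1 / N)).mu (chiP c) psvP psvP := by
    ext ξ; exact kn_cap hH hC hc hc1 ξ
  rw [e1]
  have hkb := hk _ hok 0 (mat3 A.transpose u)
  rw [em_zero] at hkb
  simp only [abs_zero, add_zero, one_pow, mul_one] at hkb
  rw [← ofReal_norm]
  apply ENNReal.ofReal_le_ofReal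
  rw [← div_eq_mul_inv, le_div_iff₀ (by positivity)]
  linarith

/-- tail of the kernel in the plank coordinates -/
theorem tail_pb {c : ℝ} (hc : 0 < c) (hc1 : c ≤ 1) (n : ℕ) : ∃ C : ℝ, 0 ≤ C ∧ ∀ (H : Hyp) (N : ℕ) (b1 b2 : ℝ) (k : ℤ × ℤ) (ρ : ℝ), H.ok2 →
    Cap (k.1 / N + b1) (k.2 / N + b2) (1 / N) → 0 < ρ →
    ∫⁻ u : G.E3, {u : G.E3 | ρ ≤ ‖mat3 (H.AT (k.1 / N + b1) (k.2 / N + b2) (1 / N)).transpose u‖}.indicator
      (fun u => ‖𝓕⁻ (MP H c N b1 b2 k) u‖ₑ) u ≤ ENNReal.ofReal (C * (ρ ^ n)⁻¹) := by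
  obtain ⟨C1, hC1, hk⟩ := ker_pw hc hc1 (n + 4)
  set w := (cW 4).toReal with hw
  have hwe : cW 4 = ENNReal.ofReal w := (ENNReal.ofReal_toReal cW4.ne).symm
  have hw0 : 0 ≤ w := ENNReal.toReal_nonneg
  refine ⟨C1 * w, by positivity, ?_⟩
  intro H N b1 b2 k ρ hH hC hρ
  have hdp := det_pos hH hC
  have hk' := hk H N b1 b2 k hH hC
  set A := H.AT (k.1 / N + b1) (k.2 / N + b2) (1 / N) with hA
  have hAt : A.transpose.det ≠ 0 := by rw [Matrix.det_transpose]; exact hdp.ne'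
  have hpw : ∀ u : G.E3, {u : G.E3 | ρ ≤ ‖mat3 A.transpose u‖}.indicator (fun u => ‖𝓕⁻ (MP H c N b1 b2 k) u‖ₑ) u ≤
      ENNReal.ofReal A.det * (ENNReal.ofReal (C1 * (ρ ^ n)⁻¹) * ENNReal.ofReal (((1 + ‖mat3 A.transpose u‖) ^ 4)⁻¹)) := by
    intro u
    by_cases hu : ρ ≤ ‖mat3 A.transpose u‖
    · rw [indicator_of_mem (show u ∈ {u : G.E3 | ρ ≤ ‖mat3 A.transpose u‖} from hu)]
      refine (hk' u).trans (mul_le_mul' le_rfl ?_)
      rw [← ENNReal.ofReal_mul (by positivity)]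
      apply ENNReal.ofReal_le_ofReal
      set x := mat3 A.transpose u with hx
      have e4 : ρ ≤ 1 + ‖x‖ := by linarith
      have e5 : ((1 + ‖x‖) ^ n)⁻¹ ≤ (ρ ^ n)⁻¹ := inv_anti₀ (by positivity) (pow_le_pow_left₀ hρ.le e4 n)
      calc C1 * ((1 + ‖x‖) ^ (n + 4))⁻¹ = C1 * ((1 + ‖x‖) ^ n)⁻¹ * ((1 + ‖x‖) ^ 4)⁻¹ := by rw [pow_add, mul_inv]; ring
        _ ≤ C1 * (ρ ^ n)⁻¹ * ((1 + ‖x‖) ^ 4)⁻¹ := by gcongr
    · rw [indicator_of_notMem (show u ∉ {u : G.E3 | ρ ≤ ‖mat3 A.transpose u‖} from hu)]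
      exact zero_le
  calc _ ≤ ∫⁻ u : G.E3, ENNReal.ofReal A.det * (ENNReal.ofReal (C1 * (ρ ^ n)⁻¹) * ENNReal.ofReal (((1 + ‖mat3 A.transpose u‖) ^ 4)⁻¹)) :=
        lintegral_mono hpw
    _ = ENNReal.ofReal A.det * (ENNReal.ofReal (C1 * (ρ ^ n)⁻¹) * (ENNReal.ofReal A.det⁻¹ * cW 4)) := by
        rw [lintegral_const_mul' _ _ ENNReal.ofReal_ne_top, lintegral_const_mul' _ _ ENNReal.ofReal_ne_top,
          lintegral_mat3 hAt (fun x => ENNReal.ofReal (((1 + ‖x‖) ^ 4)⁻¹)), Matrix.det_transpose, abs_of_pos (inv_pos.2 hdp)]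
        rfl
    _ = _ := by
        rw [hwe, ← ENNReal.ofReal_mul (by positivity), ← ENNReal.ofReal_mul (by positivity), ← ENNReal.ofReal_mul hdp.le]
        congr 1
        field_simp

/-! ### the gauge -/

theorem pg_nonneg {H : Hyp} {N : ℕ} {T b1 b2 : ℝ} (hT : 1 ≤ T) (k : ℤ × ℤ) (x y : G.E3) : 0 ≤ pg H N T b1 b2 k x y := by
  unfold pg
  have : 0 ≤ T := by linarith
  positivity

theorem pg_cont {H : Hyp} {N : ℕ} {T b1 b2 : ℝ} (k : ℤ × ℤ) (x : G.E3) : Continuous (fun y => pg H N T b1 b2 k x y) := by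
  have h1 : Continuous (fun y : G.E3 => Pb (k.1 / N + b1) (k.2 / N + b2) (1 / N) (H.pt y)) := by
    have e : (fun y : G.E3 => Pb (k.1 / N + b1) (k.2 / N + b2) (1 / N) (H.pt y)) =
        fun y => mat3 (H.AT (k.1 / N + b1) (k.2 / N + b2) (1 / N)).transpose y := by
      ext1 y; exact (pb_mat H _ _ _ y).symm
    rw [e]; exact mat3_cont _
  have h2 : ∀ i : Fin 3, Continuous (fun y : G.E3 => Pb (k.1 / N + b1) (k.2 / N + b2) (1 / N) (H.pt y) i) := fun i => by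
    exact (EuclideanSpace.proj i : G.E3 →L[ℝ] ℝ).continuous.comp h1
  unfold pg
  have c0 := h2 0
  have c1 := h2 1
  have c2 := h2 2
  fun_prop

theorem pg_meas {H : Hyp} {N : ℕ} {T b1 b2 : ℝ} (k : ℤ × ℤ) (x : G.E3) : Measurable (fun y => pg H N T b1 b2 k x y) :=
  (pg_cont k x).measurable

/-- the gauge is Lipschitz in the plank coordinates -/
theorem pg_lip {H : Hyp} {N : ℕ} {T b1 b2 : ℝ} (hT : 1 ≤ T) (k : ℤ × ℤ) (x y y' : G.E3) :
    pg H N T b1 b2 k x y' ≤ pg H N T b1 b2 k x y +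
      3 * ‖mat3 (H.AT (k.1 / N + b1) (k.2 / N + b2) (1 / N)).transpose (y - y')‖ := by
  have hT0 : 0 < T := by linarith
  rw [map_sub, pb_mat, pb_mat]
  unfold pg
  set z := Pb (k.1 / N + b1) (k.2 / N + b2) (1 / N) (H.pt y)
  set z' := Pb (k.1 / N + b1) (k.2 / N + b2) (1 / N) (H.pt y')
  have h0 : |z 0 - z' 0| ≤ ‖z - z'‖ := abs_coord3 (z - z') 0
  have h1 : |z 1 - z' 1| ≤ ‖z - z'‖ := abs_coord3 (z - z') 1
  have h2 : |z 2 - z' 2| ≤ ‖z - z'‖ := abs_coord3 (z - z') 2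
  have a0 : |z' 0 - x 0| ≤ |z 0 - x 0| + |z 0 - z' 0| := by
    have := abs_sub_le (z' 0) (z 0) (x 0); rw [abs_sub_comm (z' 0) (z 0)] at this; linarith
  have a1 : |z' 1 - x 1| ≤ |z 1 - x 1| + |z 1 - z' 1| := by
    have := abs_sub_le (z' 1) (z 1) (x 1); rw [abs_sub_comm (z' 1) (z 1)] at this; linarith
  have a2 : |z' 2 - x 2| ≤ |z 2 - x 2| + |z 2 - z' 2| := by
    have := abs_sub_le (z' 2) (z 2) (x 2); rw [abs_sub_comm (z' 2) (z 2)] at this; linarith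
  have b0 : |z' 0 - x 0| / T ≤ |z 0 - x 0| / T + |z 0 - z' 0| := by
    calc |z' 0 - x 0| / T ≤ (|z 0 - x 0| + |z 0 - z' 0|) / T := by gcongr
      _ = |z 0 - x 0| / T + |z 0 - z' 0| / T := add_div _ _ _
      _ ≤ |z 0 - x 0| / T + |z 0 - z' 0| := by
          have := div_le_self (abs_nonneg (z 0 - z' 0)) hT
          linarith
  linarith

/-! ### integrals of the weights -/

/-- `ℓ¹` norm -/
noncomputable def n1 (z : G.E3) : ℝ := |z 0| + |z 1| + |z 2|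

theorem n1_nonneg (z : G.E3) : 0 ≤ n1 z := by unfold n1; positivity

theorem n1_cont : Continuous n1 := by
  have h : ∀ i : Fin 3, Continuous (fun z : G.E3 => z i) := fun i => (EuclideanSpace.proj i : G.E3 →L[ℝ] ℝ).continuous
  unfold n1
  have c0 := h 0
  have c1 := h 1
  have c2 := h 2
  fun_prop

/-- volume of the unit ball of `n1` -/
noncomputable def v1 : ℝ≥0∞ := volume {z : G.E3 | n1 z ≤ 1}

theorem v1_lt : v1 < ⊤ := by
  refine lt_of_le_of_lt (measure_mono (fun z hz => ?_)) (measure_closedBall_lt_top (x := (0:G.E3)) (r := 1))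
  rw [Metric.mem_closedBall, dist_zero_right]
  exact (norm3_le1 z).trans hz

theorem v1_pos : 0 < v1 := by
  refine lt_of_lt_of_le (Metric.measure_ball_pos volume (0:G.E3) (show (0:ℝ) < 1/3 by norm_num)) (measure_mono fun z hz => ?_)
  rw [Metric.mem_ball, dist_zero_right] at hz
  have h0 := abs_coord3 z 0
  have h1 := abs_coord3 z 1
  have h2 := abs_coord3 z 2
  show |z 0| + |z 1| + |z 2| ≤ 1
  linarith

/-- the matrix of the gauge -/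
noncomputable def AG (H : Hyp) (N : ℕ) (T b1 b2 : ℝ) (k : ℤ × ℤ) : Matrix (Fin 3) (Fin 3) ℝ :=
  Matrix.diagonal ![1 / T, 1, 1] * (H.AT (k.1 / N + b1) (k.2 / N + b2) (1 / N)).transpose

theorem AG_apply (H : Hyp) (N : ℕ) (T b1 b2 : ℝ) (k : ℤ × ℤ) (y : G.E3) :
    mat3 (AG H N T b1 b2 k) y = !₂[Pb (k.1 / N + b1) (k.2 / N + b2) (1 / N) (H.pt y) 0 / T,
      Pb (k.1 / N + b1) (k.2 / N + b2) (1 / N) (H.pt y) 1, Pb (k.1 / N + b1) (k.2 / N + b2) (1 / N) (H.pt y) 2] := by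
  unfold AG
  rw [mat3_mul, pb_mat]
  apply ext3
  · rw [mat3_apply]
    simp [Matrix.diagonal]
    ring
  · rw [mat3_apply]
    simp [Matrix.diagonal]
  · rw [mat3_apply]
    simp [Matrix.diagonal]

theorem pg_n1 {H : Hyp} {N : ℕ} {T b1 b2 : ℝ} (hT : 1 ≤ T) (k : ℤ × ℤ) (x y : G.E3) :
    pg H N T b1 b2 k x y = n1 (mat3 (AG H N T b1 b2 k) y - !₂[x 0 / T, x 1, x 2]) := by
  have hT0 : 0 < T := by linarith
  rw [AG_apply]
  unfold n1 pg
  simp only [PiLp.sub_apply]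
  simp
  rw [← sub_div, abs_div, abs_of_pos hT0]

theorem AG_det {H : Hyp} (hH : H.ok2) {N : ℕ} {T b1 b2 : ℝ} (hT : 1 ≤ T) {k : ℤ × ℤ}
    (hC : Cap (k.1 / N + b1) (k.2 / N + b2) (1 / N)) : (AG H N T b1 b2 k).det ≠ 0 := by
  have hT0 : 0 < T := by linarith
  have hdp := det_pos hH hC
  unfold AG
  rw [Matrix.det_mul, Matrix.det_transpose, Matrix.det_diagonal]
  refine mul_ne_zero ?_ hdp.ne'
  rw [Fin.prod_univ_three]
  simp
  exact hT0.ne'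

theorem int_pg {H : Hyp} (hH : H.ok2) {N : ℕ} {T b1 b2 : ℝ} (hT : 1 ≤ T) {k : ℤ × ℤ}
    (hC : Cap (k.1 / N + b1) (k.2 / N + b2) (1 / N)) (x : G.E3) :
    v1 * ∫⁻ y, ENNReal.ofReal (((1 + pg H N T b1 b2 k x y) ^ 6)⁻¹) ≤ cW 4 * volume {y : G.E3 | pg H N T b1 b2 k x y ≤ 1} := by
  have hd := AG_det hH hT hC (T := T)
  set A := AG H N T b1 b2 k with hA
  set p : G.E3 := !₂[x 0 / T, x 1, x 2] with hp
  have e1 : ∫⁻ y, ENNReal.ofReal (((1 + pg H N T b1 b2 k x y) ^ 6)⁻¹) =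
      ENNReal.ofReal |A.det⁻¹| * ∫⁻ z, ENNReal.ofReal (((1 + n1 z) ^ 6)⁻¹) := by
    simp_rw [pg_n1 hT]
    rw [lintegral_mat3 hd (fun z => ENNReal.ofReal (((1 + n1 (z - p)) ^ 6)⁻¹)),
      lintegral_sub_right_eq_self (fun z => ENNReal.ofReal (((1 + n1 z) ^ 6)⁻¹)) p]
  have e2 : volume {y : G.E3 | pg H N T b1 b2 k x y ≤ 1} = ENNReal.ofReal |A.det⁻¹| * v1 := by
    have hms : MeasurableSet {y : G.E3 | pg H N T b1 b2 k x y ≤ 1} := (isClosed_le (pg_cont k x) continuous_const).measurableSet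
    have hms1 : MeasurableSet {z : G.E3 | n1 z ≤ 1} := (isClosed_le n1_cont continuous_const).measurableSet
    rw [← lintegral_indicator_one hms]
    have e3 : ∀ y, ({y : G.E3 | pg H N T b1 b2 k x y ≤ 1}.indicator 1 y : ℝ≥0∞) =
        (fun z => {z : G.E3 | n1 z ≤ 1}.indicator (1 : G.E3 → ℝ≥0∞) (z - p)) (mat3 A y) := by
      intro y
      simp only [indicator, mem_setOf_eq, pg_n1 hT]
      rfl
    simp_rw [e3]
    rw [lintegral_mat3 hd (fun z => {z : G.E3 | n1 z ≤ 1}.indicator (1 : G.E3 → ℝ≥0∞) (z - p)),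
      lintegral_sub_right_eq_self (fun z => {z : G.E3 | n1 z ≤ 1}.indicator (1 : G.E3 → ℝ≥0∞) z) p, lintegral_indicator_one hms1]
    rfl
  have e4 : ∫⁻ z, ENNReal.ofReal (((1 + n1 z) ^ 6)⁻¹) ≤ cW 4 := by
    unfold cW
    refine lintegral_mono fun z => ENNReal.ofReal_le_ofReal ?_
    have h1 := norm3_le1 z
    have h0 := norm_nonneg z
    change ‖z‖ ≤ n1 z at h1
    refine inv_anti₀ (by positivity) ?_
    calc (1 + ‖z‖) ^ 4 ≤ (1 + n1 z) ^ 4 := by gcongr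
      _ ≤ (1 + n1 z) ^ 6 := pow_le_pow_right₀ (by linarith) (by norm_num)
  rw [e1, e2]
  calc v1 * (ENNReal.ofReal |A.det⁻¹| * ∫⁻ z, ENNReal.ofReal (((1 + n1 z) ^ 6)⁻¹)) ≤
      v1 * (ENNReal.ofReal |A.det⁻¹| * cW 4) := by gcongr
    _ = _ := by ring

end Vale.Agent.P106.W401
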